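import Vale.Agent.P042.U.Prim
import Vale.Agent.P042.T.Ball

/-! # P042 U/Ball: exponential sums over classes of a root, with the bound of Weil. -/

namespace Vale.Agent.P042.S

open Finset Polynomial

theorem ball2 (k : ℕ) : ∃ c : ℝ, 0 < c ∧ c ≤ 1 ∧ ∀ h : ℤ[X], 1 ≤ h.natDegree → h.natDegree ≤ k →
    ∀ p : ℕ, p.Prime → ∀ (j : ℕ) (z a : ℤ), ((p ^ j : ℕ) : ℤ) ∣ h.eval z → IsCoprime a p →
      ∃ m : ℕ, m ≤ j ∧ (∀ i, m ≤ i → Gb h z a p j i = 1) ∧
        (∀ i, i < m → ‖Gb h z a p j i‖ ≤ 2 * ((p : ℝ) ^ (-c)) ^ (m - i)) ∧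
        (∀ i, i < m → ‖Gb h z a p j i‖ ≤ k * (p : ℝ) ^ (-(1 / 2) : ℝ)) ∧
        (p : ℤ) ^ j ≤ |h.leadingCoeff| * (p : ℤ) ^ (k * m) := by
  classical
  obtain ⟨c, c0, c1, hc⟩ := hua k
  refine ⟨c, c0, c1, fun h h1 hk p hp j z a hz ha => ?_⟩
  have hq : 0 < p ^ j := pow_pos hp.pos j
  have p0 : (0 : ℤ) < p := by exact_mod_cast hp.pos
  have hj : ∀ l, 1 ≤ l → (p : ℤ) ^ j ∣ (taylor z h).coeff l * (p : ℤ) ^ (j * l) := fun l hl =>
    (pow_dvd_pow _ (Nat.le_mul_of_pos_right j hl)).mul_left _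
  have ex : ∃ i, ∀ l, 1 ≤ l → (p : ℤ) ^ j ∣ (taylor z h).coeff l * (p : ℤ) ^ (i * l) := ⟨j, hj⟩
  have hm := Nat.find_spec ex
  refine ⟨Nat.find ex, Nat.find_min' ex hj, fun i hi => ?_, fun i hi => ?_, fun i hi => ?_, ?_⟩
  · rw [gb_tba]
    refine one_tba hq fun l => ?_
    rw [coeff_tba]
    refine Dvd.dvd.mul_left ?_ a
    rcases Nat.eq_zero_or_pos l with rfl | hl
    · rw [taylor_coeff_zero]
      exact hz.mul_right _
    · rw [← pow_mul, Nat.cast_pow]
      exact (hm l hl).trans (mul_dvd_mul_left _ (pow_dvd_pow _ (Nat.mul_le_mul_right l hi)))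
  · have p1 : (1 : ℝ) ≤ p := by exact_mod_cast hp.pos
    rw [gb_tba, Real.rpow_pow_comm (by positivity)]
    refine hc _ (natDegree_le_iff_coeff_eq_zero.2 fun l hl => ?_) _ hq _ (one_le_pow₀ p1)
      fun s hs H => ?_
    · rw [coeff_tba, coeff_eq_zero_of_natDegree_lt (by rw [natDegree_taylor]; omega), zero_mul,
        mul_zero]
    · obtain ⟨v, s', hs', rfl⟩ := Nat.exists_eq_pow_mul_and_not_dvd hs.ne' p hp.ne_one
      have hco : IsCoprime ((p : ℤ) ^ j) (s' * a) :=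
        ((Nat.isCoprime_iff_coprime.2 (hp.coprime_iff_not_dvd.2 hs')).mul_right ha.symm).pow_left
      have h2 : Nat.find ex ≤ i + v := Nat.find_min' ex fun l hl => by
        have h3 := H l hl
        rw [coeff_tba, Nat.cast_pow, Nat.cast_mul, Nat.cast_pow, show (p : ℤ) ^ v * s' *
          (a * ((taylor z h).coeff l * (p ^ i) ^ l)) = s' * a * ((taylor z h).coeff l *
            p ^ (i * l + v)) by ring] at h3
        refine (hco.dvd_of_dvd_mul_left h3).trans (mul_dvd_mul_left _ (pow_dvd_pow _ ?_))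
        rw [add_mul]
        exact Nat.add_le_add_left (Nat.le_mul_of_pos_right v hl) _
      have h4 : p ^ (Nat.find ex - i) ≤ p ^ v * s' :=
        (Nat.pow_le_pow_right hp.pos (by omega)).trans
          (Nat.le_mul_of_pos_right _ (Nat.pos_of_mul_pos_left hs))
      exact_mod_cast h4
  · rw [gb_tba]
    refine av_prim hp (natDegree_le_iff_coeff_eq_zero.2 fun l hl => ?_) ?_
    · rw [coeff_tba, coeff_eq_zero_of_natDegree_lt (by rw [natDegree_taylor]; omega), zero_mul,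
        mul_zero]
    · by_contra hn
      push Not at hn
      refine Nat.find_min ex hi fun l hl => ?_
      have h3 := hn l hl
      rw [coeff_tba, ← pow_mul] at h3
      exact (ha.symm.pow_left).dvd_of_dvd_mul_left h3
  · have h0 : h.leadingCoeff ≠ 0 := leadingCoeff_ne_zero.2 fun e => by simp [e] at h1
    have h2 := hm _ h1
    rw [coeff_taylor_natDegree] at h2
    refine Int.le_of_dvd (mul_pos (abs_pos.2 h0) (pow_pos p0 _)) ?_
    refine h2.trans (mul_dvd_mul ((dvd_abs _ _).2 dvd_rfl) (pow_dvd_pow _ ?_))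
    rw [mul_comm]
    exact Nat.mul_le_mul_right _ hk

end Vale.Agent.P042.S
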