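import Vale.Agent.P042.T.Defs

/-! # P042 U/Cheb (helper names end with _uch): sums over the primes of a modulus.
`cheb_set`: `Finset.induction_on_max`; for the new largest prime `p`, `θ' = θ + log p ≤ log (primorial p) ≤ p log 4` (`primorial_le_4_pow`, the set is contained in the primes up to `p`: `Finset.prod_dvd_prod_of_subset` or `sum_le_sum_of_subset_of_nonneg`, `Real.log_prod`), so `p ^ (-(1 / 2)) ≤ √(log 4) / √θ' ≤ (3 / 2) / √θ'`, and `log p = (√θ' - √θ) (√θ' + √θ) ≤ 2 √θ' (√θ' - √θ)`.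
`log_pf`: `Nat.prod_primeFactors_dvd`.  `cheb2`: at most `W` primes are `≤ W` (each term is at most `1`); for the others `p ^ (-(1 / 2)) ≤ log p * p ^ (-(1 / 2)) / log W`. -/

namespace Vale.Agent.P042.S

open Finset Polynomial

theorem sum_log_uch {s : Finset ℕ} (hs : ∀ p ∈ s, p.Prime) {q : ℕ} (hq : 0 < q)
    (h : ∏ p ∈ s, p ∣ q) : ∑ p ∈ s, Real.log p ≤ Real.log q := by
  have h0 : ∀ p ∈ s, (0 : ℝ) < p := fun p hp => by exact_mod_cast (hs p hp).pos
  rw [← Real.log_prod fun p hp => (h0 p hp).ne']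
  refine Real.log_le_log (prod_pos h0) ?_
  rw [← Nat.cast_prod]
  exact Nat.cast_le.2 (Nat.le_of_dvd hq h)

theorem cheb_set (s : Finset ℕ) (hs : ∀ p ∈ s, p.Prime) :
    ∑ p ∈ s, Real.log p * (p : ℝ) ^ (-(1 / 2) : ℝ) ≤ 3 * √(∑ p ∈ s, Real.log p) := by
  induction s using Finset.induction_on_max with
  | empty => simp
  | insert p s hp ih =>
    have h1 : p ∉ s := fun h => lt_irrefl p (hp p h)
    have h2 := sum_log_uch hs (primorial_pos p) (prod_dvd_prod_of_subset _ _ _ fun r hr =>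
      mem_filter.2 ⟨mem_range.2 (Nat.lt_succ_of_le ((mem_insert.1 hr).elim le_of_eq
        fun h => (hp r h).le)), hs r hr⟩)
    have p0 : (0 : ℝ) < p := by exact_mod_cast (hs p (mem_insert_self _ _)).pos
    have h3 : Real.log (primorial p) ≤ 9 / 4 * p := by
      have e1 : ((primorial p : ℕ) : ℝ) ≤ 2 ^ (2 * p) := by
        rw [pow_mul]
        exact_mod_cast primorial_le_four_pow p
      have e2 := Real.log_le_log (by exact_mod_cast primorial_pos p) e1
      rw [Real.log_pow] at e2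
      push_cast at e2
      nlinarith [Real.log_two_lt_d9]
    have h4 := ih fun r hr => hs r (mem_insert_of_mem hr)
    rw [sum_insert h1] at h2 ⊢
    rw [sum_insert h1]
    have l0 : 0 ≤ Real.log p := Real.log_natCast_nonneg p
    have t0 : 0 ≤ ∑ r ∈ s, Real.log r := sum_nonneg fun r _ => Real.log_natCast_nonneg r
    have a2 := Real.sq_sqrt t0
    have b2 := Real.sq_sqrt (add_nonneg l0 t0)
    have c2 := Real.sq_sqrt p0.le
    have c0 := Real.sqrt_pos.2 p0
    have ab : √(∑ r ∈ s, Real.log r) ≤ √(Real.log p + ∑ r ∈ s, Real.log r) :=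
      Real.sqrt_le_sqrt (by linarith)
    have bc : √(Real.log p + ∑ r ∈ s, Real.log r) ≤ 3 / 2 * √p :=
      Real.sqrt_le_iff.2 ⟨by positivity, by rw [mul_pow, c2]; linarith⟩
    rw [Real.rpow_neg p0.le, ← Real.sqrt_eq_rpow, ← div_eq_mul_inv]
    have h5 : Real.log p / √p ≤ 3 * (√(Real.log p + ∑ r ∈ s, Real.log r) -
        √(∑ r ∈ s, Real.log r)) := by
      rw [div_le_iff₀ c0]
      nlinarith [mul_nonneg (sub_nonneg.2 ab) (sub_nonneg.2 bc), sq_nonneg
        (√(Real.log p + ∑ r ∈ s, Real.log r) - √(∑ r ∈ s, Real.log r))]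
    linarith

theorem log_pf {q : ℕ} (hq : 0 < q) : ∑ p ∈ q.primeFactors, Real.log p ≤ Real.log q :=
  sum_log_uch (fun _ => Nat.prime_of_mem_primeFactors) hq (Nat.prod_primeFactors_dvd q)

theorem cheb {q : ℕ} (hq : 0 < q) :
    ∑ p ∈ q.primeFactors, Real.log p * (p : ℝ) ^ (-(1 / 2) : ℝ) ≤ 3 * √(Real.log q) :=
  (cheb_set _ fun _ => Nat.prime_of_mem_primeFactors).trans
    (mul_le_mul_of_nonneg_left (Real.sqrt_le_sqrt (log_pf hq)) (by norm_num))

theorem cheb2 {q W : ℕ} (hq : 0 < q) (hW : 2 ≤ W) :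
    ∑ p ∈ q.primeFactors, (p : ℝ) ^ (-(1 / 2) : ℝ) ≤ W + 3 * √(Real.log q) / Real.log W := by
  have W1 : (1 : ℝ) < W := by exact_mod_cast hW
  have l0 := Real.log_pos W1
  have h1 : ∀ p ∈ q.primeFactors, (p : ℝ) ^ (-(1 / 2) : ℝ) ≤ (if p < W then 1 else 0) +
      Real.log p * (p : ℝ) ^ (-(1 / 2) : ℝ) / Real.log W := fun p hp => by
    have p1 : (1 : ℝ) ≤ p := by exact_mod_cast (Nat.prime_of_mem_primeFactors hp).one_le
    have e0 : 0 ≤ (p : ℝ) ^ (-(1 / 2) : ℝ) := by positivity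
    split_ifs with h
    · exact (Real.rpow_le_one_of_one_le_of_nonpos p1 (by norm_num)).trans (le_add_of_nonneg_right
        (div_nonneg (mul_nonneg (Real.log_nonneg p1) e0) l0.le))
    · rw [zero_add, le_div_iff₀ l0, mul_comm]
      exact mul_le_mul_of_nonneg_right
        (Real.log_le_log (by linarith) (by exact_mod_cast not_lt.1 h)) e0
  refine (sum_le_sum h1).trans ?_
  rw [sum_add_distrib, ← sum_div, sum_boole]
  refine add_le_add ?_ (div_le_div_of_nonneg_right (cheb hq) l0.le)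
  exact_mod_cast (card_le_card (t := range W) fun p hp =>
    mem_range.2 (mem_filter.1 hp).2).trans_eq (card_range W)

end Vale.Agent.P042.S
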