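import Vale.Agent.P042.T.Fin

/-! # P042 U/Fin (TASK; helper names end with _ufi): the final shape of the bound.
As `asym` in T/Fin.lean with `e = 2`: `c = 1 / (2 √(A + 1))`; `L` maximal with `2 ^ ((A + 1) L ^ 2) ≤ N`; `log N ≤ (A + 1) (L + 1) ^ 2`, so `c √(log N) ≤ (L + 1) / 2`; `(1 / 2) ^ L ≤ exp (-L / 2)` (`Real.log_two_gt_d9`); `C' = (|C| + 1) exp (L₀ + 1)`. -/

namespace Vale.Agent.P042.S

open Finset Polynomial

theorem asym2 (A : ℕ) : ∃ c : ℝ, 0 < c ∧ ∀ (L₀ : ℕ) (C : ℝ), ∃ C' : ℝ, ∀ (N : ℕ) (x : ℝ), x ≤ N →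
    (∀ L : ℕ, L₀ ≤ L → 2 ^ (A * L ^ 2) ≤ N → x ≤ C * N * (1 / 2) ^ L) →
      x ≤ C' * N * Real.exp (-(c * √(Real.log N))) := by
  have hA : (0 : ℝ) < √(A + 1) := by positivity
  refine ⟨1 / (4 * √(A + 1)), by positivity, fun L₀ C =>
    ⟨(|C| + 1) * Real.exp (L₀ + 1), fun N x hx H => ?_⟩⟩
  rcases Nat.eq_zero_or_pos N with rfl | hN
  · simpa using hx
  have hex : ∃ L, N < 2 ^ ((A + 1) * L ^ 2) := ⟨N, Nat.lt_two_pow_self.trans_le
    (Nat.pow_le_pow_right two_pos ((Nat.le_self_pow two_ne_zero N).trans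
      (Nat.le_mul_of_pos_left _ A.succ_pos)))⟩
  obtain ⟨L, h1, h2⟩ : ∃ L, 2 ^ ((A + 1) * L ^ 2) ≤ N ∧ N < 2 ^ ((A + 1) * (L + 1) ^ 2) := by
    have h1 := Nat.find_spec hex
    obtain ⟨L, hL⟩ : ∃ L, Nat.find hex = L + 1 := Nat.exists_eq_succ_of_ne_zero fun h0 => by
      rw [h0] at h1
      simp at h1
      omega
    exact ⟨L, not_lt.1 (Nat.find_min hex (by omega)), hL ▸ h1⟩
  have h3 : Real.log N ≤ (√(A + 1) * (L + 1)) ^ 2 := by
    have h4 : (N : ℝ) ≤ 2 ^ ((A + 1) * (L + 1) ^ 2) := by exact_mod_cast h2.le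
    have h5 := Real.log_le_log (by positivity) h4
    have h6 : Real.log 2 ≤ 1 := by linarith [Real.log_two_lt_d9]
    rw [Real.log_pow] at h5
    refine h5.trans ((mul_le_of_le_one_right (Nat.cast_nonneg _) h6).trans (le_of_eq ?_))
    rw [mul_pow, Real.sq_sqrt (by positivity)]
    push_cast
    rfl
  have h4 : 1 / (4 * √(A + 1)) * √(Real.log N) ≤ (L + 1) / 4 := by
    have h5 : √(Real.log N) ≤ √(A + 1) * (L + 1) := Real.sqrt_le_iff.2 ⟨by positivity, h3⟩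
    refine (mul_le_mul_of_nonneg_left h5 (by positivity)).trans (le_of_eq ?_)
    field_simp
  generalize 1 / (4 * √(A + 1)) * √(Real.log N) = u at h4
  rw [mul_right_comm (|C| + 1), mul_assoc, ← Real.exp_add]
  have hL₀ : (0 : ℝ) ≤ L₀ := Nat.cast_nonneg _
  have hC := abs_nonneg C
  have hN' : (1 : ℝ) ≤ N := by exact_mod_cast hN
  rcases le_or_gt L L₀ with h5 | h5
  · have h6 : (L : ℝ) ≤ L₀ := by exact_mod_cast h5
    have h7 : 1 ≤ Real.exp (L₀ + 1 + -u) := Real.one_le_exp (by linarith)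
    refine hx.trans (le_trans ?_ (le_mul_of_one_le_right (by positivity) h7))
    nlinarith
  · have h6 : A * L ^ 2 ≤ (A + 1) * L ^ 2 := Nat.mul_le_mul_right _ A.le_succ
    refine (H L h5.le ((Nat.pow_le_pow_right two_pos h6).trans h1)).trans ?_
    have h7 : (1 / 2 : ℝ) ^ L ≤ Real.exp (L₀ + 1 + -u) := by
      have h8 : (1 / 2 : ℝ) ≤ Real.exp (-1 / 4) := by linarith [Real.add_one_le_exp (-1 / 4)]
      refine (pow_le_pow_left₀ (by norm_num) h8 L).trans ?_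
      rw [← Real.exp_nat_mul]
      exact Real.exp_le_exp.2 (by linarith)
    have h8 : C ≤ |C| + 1 := by linarith [le_abs_self C]
    gcongr

end Vale.Agent.P042.S
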