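import Vale.Agent.P042.U.Seq
import Vale.Agent.P042.U.Cheb

/-! # P042 U/GlobB (TASK; helper names end with _ugb): the two products.
`∏ (1 + x p) ≤ exp (∑ x p)` (`Real.add_one_le_exp`, `Real.exp_sum`, `prod_le_prod`).  `ang_le`: `pk_le'`, `cheb`, `log_pf`, `log q ≤ y`; `exp (η / 2) ≤ 1 + η` for `η ≤ 1` (`Real.abs_exp_sub_one_le`).
`abs_le'`: `prod_mul_distrib`; the first product is at most `ℓ ^ ℓ = exp (ℓ log ℓ)` (`prod_ite`, at most `ℓ` primes are `≤ ℓ`); `pk_le`, `cheb2`, `log_pf`. -/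

namespace Vale.Agent.P042.S

open Finset Polynomial

theorem prod_ugb {s : Finset ℕ} {x : ℕ → ℝ} (hx : ∀ p ∈ s, 0 ≤ x p) {b : ℝ}
    (hb : ∑ p ∈ s, x p ≤ b) : ∏ p ∈ s, (1 + x p) ≤ Real.exp b := by
  refine le_trans ?_ (Real.exp_le_exp.2 hb)
  rw [Real.exp_sum]
  exact prod_le_prod (fun p hp => add_nonneg zero_le_one (hx p hp)) fun p _ =>
    (add_comm _ _).trans_le (Real.add_one_le_exp _)

theorem two_ugb {q p : ℕ} (hp : p ∈ q.primeFactors) : (2 : ℝ) ≤ p := by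
  exact_mod_cast (Nat.prime_of_mem_primeFactors hp).two_le

theorem ang_le {Λ κ t η y : ℝ} {q : ℕ} (hq : 0 < q) (hΛ : 0 ≤ Λ) (hκ : 0 ≤ κ) (h0 : 0 ≤ t)
    (h1 : t ≤ 1 / 8) (hη : η ≤ 1) (hy : Real.log q ≤ y)
    (h : Λ * (9 * κ * √y + 200 * t ^ 3 * y) ≤ η / 2) :
    ∏ p ∈ q.primeFactors, (1 + (1 - (p : ℝ) ^ (-κ)) * (Λ * (p : ℝ) ^ (t - 1 / 2))) ≤ 1 + η := by
  have y0 : 0 ≤ y := (Real.log_natCast_nonneg q).trans hy
  have e0 : 0 ≤ η / 2 := le_trans (by positivity) h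
  refine (prod_ugb (b := η / 2) (fun p hp => mul_nonneg (sub_nonneg.2
    (Real.rpow_le_one_of_one_le_of_nonpos (by linarith [two_ugb hp]) (neg_nonpos.2 hκ)))
    (by positivity)) (le_trans ?_ h)).trans ?_
  · refine (sum_le_sum fun p hp => (mul_left_comm _ _ _).trans_le
      (mul_le_mul_of_nonneg_left (pk_le' (two_ugb hp) h0 h1 hκ) hΛ)).trans ?_
    rw [← mul_sum, sum_add_distrib, ← mul_sum, ← mul_sum]
    have k1 := mul_le_mul_of_nonneg_left ((cheb hq).trans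
      (mul_le_mul_of_nonneg_left (Real.sqrt_le_sqrt hy) zero_le_three)) hκ
    have k2 := mul_le_mul_of_nonneg_left ((log_pf hq).trans hy) (pow_nonneg h0 3)
    exact mul_le_mul_of_nonneg_left (by linarith) hΛ
  · have k := Real.abs_exp_sub_one_le (x := η / 2) (by rw [abs_of_nonneg e0]; linarith)
    rw [abs_of_nonneg e0] at k
    linarith [le_abs_self (Real.exp (η / 2) - 1)]

theorem abs_le' {Λ t : ℝ} {q W l : ℕ} (hq : 0 < q) (hΛ : 0 ≤ Λ) (h0 : 0 ≤ t) (h1 : t ≤ 1 / 8)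
    (hW : 2 ≤ W) (hl : 1 ≤ l) :
    ∏ p ∈ q.primeFactors, ((if p ≤ l then (l : ℝ) else 1) * (1 + 2 * (Λ * (p : ℝ) ^ (t - 1 / 2)))) ≤
      Real.exp (l * Real.log l + 6 * Λ * W +
        2 * Λ * (9 * √(Real.log q) / Real.log W + 200 * t ^ 3 * Real.log q)) := by
  have l1 : (1 : ℝ) ≤ l := by exact_mod_cast hl
  rw [prod_mul_distrib, add_assoc, Real.exp_add]
  refine mul_le_mul ?_ (prod_ugb (fun p _ => by positivity) ?_)
    (prod_nonneg fun p _ => by positivity) (Real.exp_pos _).le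
  · rw [prod_ite, prod_const, prod_const_one, mul_one, Real.exp_nat_mul, Real.exp_log (by linarith)]
    refine pow_le_pow_right₀ l1 ((card_le_card fun p hp => ?_).trans (Nat.card_Icc 1 l).le)
    exact mem_Icc.2 ⟨Nat.pos_of_mem_primeFactors (mem_filter.1 hp).1, (mem_filter.1 hp).2⟩
  · refine (sum_le_sum fun p hp => mul_le_mul_of_nonneg_left
      (mul_le_mul_of_nonneg_left (pk_le (two_ugb hp) h0 h1) hΛ) zero_le_two).trans ?_
    rw [← mul_sum, ← mul_sum, sum_add_distrib, ← mul_sum, ← mul_sum]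
    have k1 := mul_le_mul_of_nonneg_left (cheb2 hq hW) hΛ
    have k2 := mul_le_mul_of_nonneg_left
      (mul_le_mul_of_nonneg_left (log_pf hq) (pow_nonneg h0 3)) hΛ
    rw [mul_div_assoc] at k1 ⊢
    linarith

end Vale.Agent.P042.S
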