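import Vale.Agent.P042.T.Defs

/-! # P042 U/ParU (TASK; helper names end with _upa): the parameters.
`η' > 0` small: `η' ≤ c / 2`, `η' l₀ ≤ 1 / 8`, `Λ (9 η' + 200 (η' l₀) ^ 3) ≤ η / 2`, `400 Λ l₀ ^ 3 η' ^ 2 ≤ 1 / (4 k)` (take `η' ≤ 1`, use `η' ^ 3 ≤ η' ^ 2 ≤ η'` and a minimum of explicit numbers); `W` with `18 Λ / (η' log W) ≤ 1 / (4 k)` (`W ≥ exp (72 k Λ / η') + 2`);
`A ≥ 2` with `(2 k (|C₀| + 1) / η') ^ 2 ≤ A log 2`; `b = A L ^ 2`, `y = b log 2 ≥ 1`, `κ = η' / √y ≤ η'`; `κ √y = η'`, `κ ^ 3 y ≤ η' ^ 3`; for `x ≥ y`: `√x ≤ x / √y = κ x / η'`, `κ x ≥ κ y = η' √y ≥ 2 k (|C₀| + L)`, `log 2 ≤ 1`. -/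

namespace Vale.Agent.P042.S

open Finset Polynomial

theorem small_upa {c Λ η : ℝ} {k : ℕ} (l₀ : ℕ) (hc : 0 < c) (hη : 0 < η) (hk : 1 ≤ k) :
    ∃ e : ℝ, 0 < e ∧ e ≤ 1 ∧ e ≤ c / 2 ∧ e * l₀ ≤ 1 / 8 ∧
      Λ * (9 * e + 200 * (e * l₀) ^ 3) ≤ η / 2 ∧ 400 * Λ * l₀ ^ 3 * e ^ 2 ≤ 1 / (4 * k) := by
  have key : ∀ (f : ℝ → ℝ) (d : ℝ), Continuous f → f 0 = 0 → 0 < d →
      ∀ᶠ e in nhdsWithin (0 : ℝ) (Set.Ioi 0), f e ≤ d := fun f d hf h0 hd =>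
    ((hf.tendsto' 0 0 h0).eventually_le_const hd).filter_mono nhdsWithin_le_nhds
  have hk' : (0 : ℝ) < k := by exact_mod_cast hk
  have h1 := key (fun e => e) 1 continuous_id rfl one_pos
  have h2 := key (fun e => e) (c / 2) continuous_id rfl (by positivity)
  have h3 := key (fun e => e * l₀) (1 / 8) (by fun_prop) (by simp) (by norm_num)
  have h4 := key (fun e => Λ * (9 * e + 200 * (e * l₀) ^ 3)) (η / 2) (by fun_prop) (by simp)
    (by positivity)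
  have h5 := key (fun e => 400 * Λ * l₀ ^ 3 * e ^ 2) (1 / (4 * k)) (by fun_prop) (by simp)
    (by positivity)
  have h0 : ∀ᶠ e in nhdsWithin (0 : ℝ) (Set.Ioi 0), 0 < e := self_mem_nhdsWithin
  exact (h0.and (h1.and (h2.and (h3.and (h4.and h5))))).exists

theorem last_upa {Λ e s x w l K C L : ℝ} (hΛ : 0 ≤ Λ) (he : 0 < e) (hs : 1 ≤ s) (hx : s ^ 2 ≤ x)
    (hw : 0 < w) (hK : 0 < K) (h1 : 72 * K * Λ / e ≤ w)
    (h2 : 400 * Λ * l ^ 3 * e ^ 2 ≤ 1 / (4 * K)) (h3 : 2 * K * (C + L) ≤ e * s) :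
    C + 2 * Λ * (9 * √x / w + 200 * (e / s * l) ^ 3 * x) - e / s / K * x ≤ -L := by
  have hs0 : 0 < s := by linarith
  have hx0 : 0 ≤ x := le_trans (by positivity) hx
  obtain ⟨u, rfl⟩ : ∃ u, x = u * s := ⟨x / s, by field_simp⟩
  have hu : s ≤ u := le_of_mul_le_mul_right (by rw [← sq]; exact hx) hs0
  have hu0 : 0 ≤ u := by linarith
  have a1 : √(u * s) ≤ u := by
    rw [Real.sqrt_le_left hu0, sq]
    exact mul_le_mul_of_nonneg_left hu hu0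
  have a2 : 2 * Λ * (9 * √(u * s) / w) ≤ e * u / (4 * K) := by
    rw [div_le_iff₀ he] at h1
    calc 2 * Λ * (9 * √(u * s) / w) ≤ 2 * Λ * (9 * u / w) := by gcongr
      _ = 72 * K * Λ * (u / (4 * K * w)) := by field_simp; ring
      _ ≤ w * e * (u / (4 * K * w)) := by gcongr
      _ = e * u / (4 * K) := by field_simp
  have a3 : 2 * Λ * (200 * (e / s * l) ^ 3 * (u * s)) ≤ e * u / (4 * K) := by
    have b1 : 1 / s ^ 2 ≤ 1 := by
      rw [div_le_one (by positivity)]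
      exact one_le_pow₀ hs
    calc 2 * Λ * (200 * (e / s * l) ^ 3 * (u * s))
        = 400 * Λ * l ^ 3 * e ^ 2 * (e * u) * (1 / s ^ 2) := by field_simp; ring
      _ ≤ 1 / (4 * K) * (e * u) * 1 := by gcongr
      _ = e * u / (4 * K) := by ring
  have a4 : e / s / K * (u * s) = 4 * (e * u / (4 * K)) := by field_simp
  have a5 : C + L ≤ 2 * (e * u / (4 * K)) := by
    have b1 : e * s ≤ e * u := mul_le_mul_of_nonneg_left hu he.le
    have b2 : 2 * (e * u / (4 * K)) = e * u / (2 * K) := by field_simp; ring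
    rw [b2, le_div_iff₀ (by positivity)]
    linarith
  rw [mul_add, a4]
  linarith

theorem parU {c Λ η : ℝ} {k : ℕ} (l₀ : ℕ) (hc : 0 < c) (hΛ : 0 ≤ Λ) (hη : 0 < η) (hk : 1 ≤ k) :
    ∃ W : ℕ, 2 ≤ W ∧ ∀ C₀ : ℝ, ∃ A : ℕ, ∀ L : ℕ, 1 ≤ L → ∃ (b : ℕ) (κ : ℝ), L ≤ b ∧ b ≤ A * L ^ 2 ∧
      0 ≤ κ ∧ κ ≤ c / 2 ∧ κ * l₀ ≤ 1 / 8 ∧
      Λ * (9 * κ * √(b * Real.log 2) + 200 * (κ * l₀) ^ 3 * (b * Real.log 2)) ≤ η / 2 ∧
      ∀ x : ℝ, b * Real.log 2 ≤ x →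
        C₀ + 2 * Λ * (9 * √x / Real.log W + 200 * (κ * l₀) ^ 3 * x) - κ / k * x ≤
          -(L * Real.log 2) := by
  obtain ⟨e, he, e1, e2, e3, e4, e5⟩ := small_upa (Λ := Λ) l₀ hc hη hk
  have hk' : (1 : ℝ) ≤ k := by exact_mod_cast hk
  have l2 : 0 < Real.log 2 := Real.log_pos one_lt_two
  have l3 : Real.log 2 ≤ 1 := by
    have := Real.log_le_sub_one_of_pos (two_pos : (0 : ℝ) < 2)
    linarith
  obtain ⟨W, hW⟩ := exists_nat_ge (Real.exp (72 * k * Λ / e) + 2)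
  have hW0 := Real.exp_pos (72 * k * Λ / e)
  have hW2 : (2 : ℝ) ≤ W := by linarith
  have hW3 : 72 * k * Λ / e ≤ Real.log W := by
    rw [Real.le_log_iff_exp_le (by linarith)]
    linarith
  refine ⟨W, by exact_mod_cast hW2, fun C₀ => ?_⟩
  obtain ⟨A, hA⟩ := exists_nat_ge ((2 * k * (|C₀| + 1) / e) ^ 2 / Real.log 2)
  refine ⟨A + 1, fun L hL => ?_⟩
  have hL' : (1 : ℝ) ≤ L := by exact_mod_cast hL
  have hC := abs_nonneg C₀
  have h1 : L * (2 * k * (|C₀| + 1) / e) ≤ √((((A + 1) * L ^ 2 : ℕ) : ℝ) * Real.log 2) := by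
    refine Real.le_sqrt_of_sq_le ?_
    rw [div_le_iff₀ l2] at hA
    push_cast
    calc (L * (2 * k * (|C₀| + 1) / e)) ^ 2 = (2 * k * (|C₀| + 1) / e) ^ 2 * L ^ 2 := by ring
      _ ≤ (A + 1) * Real.log 2 * L ^ 2 := by
        gcongr
        linarith
      _ = (A + 1) * L ^ 2 * Real.log 2 := by ring
  have h0 : 0 ≤ (((A + 1) * L ^ 2 : ℕ) : ℝ) * Real.log 2 := by positivity
  have h2 := Real.sq_sqrt h0
  refine ⟨(A + 1) * L ^ 2, e / √((((A + 1) * L ^ 2 : ℕ) : ℝ) * Real.log 2), by nlinarith, le_rfl, ?_⟩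
  generalize √((((A + 1) * L ^ 2 : ℕ) : ℝ) * Real.log 2) = s at h1 h2 ⊢
  rw [← h2]
  rw [← mul_div_assoc, div_le_iff₀ he] at h1
  have h3 : 2 * k * (|C₀| + L) ≤ e * s := by
    have : |C₀| + L ≤ L * (|C₀| + 1) := by nlinarith
    calc 2 * k * (|C₀| + L) ≤ 2 * k * (L * (|C₀| + 1)) := by gcongr
      _ = L * (2 * k * (|C₀| + 1)) := by ring
      _ ≤ e * s := by linarith
  have h4 : 1 ≤ s := by
    have a1 : 2 * 1 * (0 + 1) ≤ 2 * k * (|C₀| + L) := by gcongr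
    by_contra h
    have a2 : e * s ≤ e * 1 := mul_le_mul_of_nonneg_left (not_le.1 h).le he.le
    linarith
  have h5 : 0 < s := by linarith
  have h6 : e / s ≤ e := div_le_self he.le h4
  refine ⟨by positivity, h6.trans e2, le_trans (by gcongr) e3, le_trans ?_ e4, fun x hx => ?_⟩
  · have a1 : 9 * (e / s) * s = 9 * e := by field_simp
    have a2 : 200 * (e / s * l₀) ^ 3 * s ^ 2 = 200 * (e * l₀) ^ 3 / s := by field_simp
    have a3 : 200 * (e * l₀) ^ 3 / s ≤ 200 * (e * l₀) ^ 3 := div_le_self (by positivity) h4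
    rw [a1, a2]
    gcongr
  · refine last_upa hΛ he h4 hx (Real.log_pos (by linarith)) (by linarith) hW3
      e5 (le_trans ?_ h3)
    have a1 : L * Real.log 2 ≤ L := mul_le_of_le_one_right (by linarith) l3
    gcongr
    exact le_abs_self _

end Vale.Agent.P042.S
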