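import Vale.Agent.P042.T.Prod

/-! # P042 U/Prod (TASK; helper names end with _upo): products over primes with factors that depend on the prime.
Copy `prod_sec`, `prod_dec` of T/Prod.lean (`Nat.Coprime.primeFactors_mul`, `prod_union` with `disjoint_primeFactors`, `Nat.primeFactors_prime_pow`, `Finset.one_le_prod`-like bounds). -/

namespace Vale.Agent.P042.S

open Finset Polynomial

variable {h : ℤ[X]} {D : ℕ → ℕ → ℤ → ℝ}

theorem one_le_upo {ξ : ℕ → ℝ} (hξ : ∀ p, 0 ≤ ξ p) (s : Finset ℕ) : 1 ≤ ∏ p ∈ s, (1 + ξ p) := by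
  refine prod_induction _ (fun x => 1 ≤ x) (fun a b ha hb => one_le_mul_of_one_le_of_one_le ha hb)
    le_rfl fun p _ => ?_
  linarith [hξ p]

theorem prod_sec2 (hL : LW D) {ξ : ℕ → ℝ} {E : ℕ} (hξ : ∀ p, 0 ≤ ξ p)
    (H : ∀ p : ℕ, p.Prime → ∀ (j : ℕ) (a : ℤ), p ^ j ≤ E → IsCoprime a p →
      Sec (1 + ξ p) 0 (∑ d ∈ (p ^ j).divisors, tm h D (p ^ j) a d)) (q : ℕ) :
    0 < q → q ≤ E → ∀ a : ℤ, IsCoprime a q →
      Sec (∏ p ∈ q.primeFactors, (1 + ξ p)) 0 (∑ d ∈ q.divisors, tm h D q a d) := by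
  induction q using Nat.recOnPosPrimePosCoprime with
  | prime_pow p j hp hj =>
    intro _ hE a ha
    rw [Nat.cast_pow] at ha
    rw [Nat.primeFactors_prime_pow hj.ne' hp, prod_singleton]
    exact H p hp j a hE ((IsCoprime.pow_right_iff hj).1 ha)
  | zero => intro h0; exact absurd h0 (lt_irrefl 0)
  | one =>
    intro _ _ a _
    rw [Nat.divisors_one, sum_singleton, tm_one, Nat.primeFactors_one, prod_empty]
    exact sec_one 0
  | coprime q₁ q₂ h₁ h₂ hq ih₁ ih₂ =>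
    intro _ hE a ha
    have p₁ : 0 < q₁ := by omega
    have p₂ : 0 < q₂ := by omega
    obtain ⟨a₁, a₂, c₁, c₂, H'⟩ := ph_split h hq p₁ p₂ ha
    have b₁ := ih₁ p₁ ((Nat.le_mul_of_pos_right _ p₂).trans hE) a₁ c₁
    have b₂ := ih₂ p₂ ((Nat.le_mul_of_pos_left _ p₁).trans hE) a₂ c₂
    unfold tm at b₁ b₂ ⊢
    rw [sum_div_gl hq, sum_congr rfl fun d₁ hd₁ => sum_congr rfl fun d₂ hd₂ =>
      split_glW hL hq p₁ p₂ H' hd₁ hd₂, ← sum_mul_sum, hq.primeFactors_mul,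
      prod_union hq.disjoint_primeFactors]
    exact Sec.mul (one_le_upo hξ _) (one_le_upo hξ _) le_rfl zero_le_one b₁ b₂

theorem prod_dec2 (hL : LW D) {b : ℕ → ℝ} {c : ℝ} {E : ℕ} (hb : ∀ p, 0 ≤ b p)
    (H : ∀ p : ℕ, p.Prime → ∀ (j : ℕ) (a : ℤ), p ^ j ≤ E → IsCoprime a p →
      ∑ d ∈ (p ^ j).divisors, ‖tm h D (p ^ j) a d‖ ≤ b p * ((p ^ j : ℕ) : ℝ) ^ (-c)) (q : ℕ) :
    0 < q → q ≤ E → ∀ a : ℤ, IsCoprime a q →
      ∑ d ∈ q.divisors, ‖tm h D q a d‖ ≤ (∏ p ∈ q.primeFactors, b p) * (q : ℝ) ^ (-c) := by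
  induction q using Nat.recOnPosPrimePosCoprime with
  | prime_pow p j hp hj =>
    intro _ hE a ha
    rw [Nat.cast_pow] at ha
    rw [Nat.primeFactors_prime_pow hj.ne' hp, prod_singleton]
    exact H p hp j a hE ((IsCoprime.pow_right_iff hj).1 ha)
  | zero => intro h0; exact absurd h0 (lt_irrefl 0)
  | one =>
    intro _ _ a _
    rw [Nat.divisors_one, sum_singleton, tm_one, norm_one, Nat.cast_one, Real.one_rpow,
      Nat.primeFactors_one, prod_empty, one_mul]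
  | coprime q₁ q₂ h₁ h₂ hq ih₁ ih₂ =>
    intro _ hE a ha
    have p₁ : 0 < q₁ := by omega
    have p₂ : 0 < q₂ := by omega
    obtain ⟨a₁, a₂, c₁, c₂, H'⟩ := ph_split h hq p₁ p₂ ha
    have b₁ := ih₁ p₁ ((Nat.le_mul_of_pos_right _ p₂).trans hE) a₁ c₁
    have b₂ := ih₂ p₂ ((Nat.le_mul_of_pos_left _ p₁).trans hE) a₂ c₂
    unfold tm at b₁ b₂ ⊢
    rw [sum_div_gl hq, sum_congr rfl fun d₁ hd₁ => sum_congr rfl fun d₂ hd₂ => by
      rw [split_glW hL hq p₁ p₂ H' hd₁ hd₂, norm_mul], ← sum_mul_sum, Nat.cast_mul,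
      Real.mul_rpow (Nat.cast_nonneg _) (Nat.cast_nonneg _), hq.primeFactors_mul,
      prod_union hq.disjoint_primeFactors, mul_mul_mul_comm]
    exact mul_le_mul b₁ b₂ (sum_nonneg fun _ _ => norm_nonneg _)
      (mul_nonneg (prod_nonneg fun p _ => hb p) (by positivity))

end Vale.Agent.P042.S
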