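import Vale.Agent.P042.T.Seq

/-! # P042 U/Seq (TASK; helper names end with _usq): sharper bounds for geometric mixtures.
`seq2`: as `seq_sec` in T/Seq.lean (its helper lemmas may be reused): the sum is `θ ^ m + (1 - θ) ∑ i < m, θ ^ i G i`; for the norms: terms `i ≥ m` vanish, `θ ^ (i + 1) (‖G (i + 1)‖ + ‖G i‖)`, the term `i + 1 = m` gives `θ ^ m`, and `θ ^ (i + 1) ≤ θ ^ i`.
`sig_le`: `θ = x ^ (-κ)`, `θ ^ i = θ ^ m * x ^ (κ (m - i))`; with `l = m - i`: for `l ≤ l₀` the term is at most `k x ^ (κ l₀ - 1 / 2)` (at most `l₀` terms); for `l > l₀` it is at most `2 x ^ (-(c / 2) l) ≤ 2 x ^ (-1 / 2) ρ₁ ^ (l - l₀)`, `ρ₁ = 2 ^ (-(c / 2))` (`sum_range_reflect`; a bound for every `l ≥ 1`: `(if l ≤ l₀ then k else 0) + 2 ρ₁ ^ (l - l₀)` restricted suitably, geometric sum).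
`pk_le`, `pk_le'`: if `t log x ≤ 1` then `x ^ t ≤ exp 1 ≤ 3`, and `1 - x ^ (-κ) ≤ κ log x` (`Real.add_one_le_exp`); otherwise `x ^ (t - 1 / 2) ≤ exp (-(3 / 8) log x) ≤ 6 / ((3 / 8) log x) ^ 3 ≤ 114 t ^ 3 ≤ 200 t ^ 3 log x` (`Real.pow_div_factorial_le_exp`, `Real.log_two_gt_d9`). -/

namespace Vale.Agent.P042.S

open Finset Polynomial

theorem seq2 {G : ℕ → ℂ} {m n : ℕ} {θ σ : ℝ} (hθ0 : 0 < θ) (hθ1 : θ ≤ 1) (h1 : ∀ i, m ≤ i → G i = 1)
    (hσ : ∑ i ∈ range m, θ ^ i * ‖G i‖ ≤ σ * θ ^ m) (hn : m ≤ n) :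
    Sec (1 + (1 - θ) * σ) 0 (G 0 + ∑ i ∈ range n, (θ : ℂ) ^ (i + 1) * (G (i + 1) - G i)) ∧
      ‖G 0‖ + ∑ i ∈ range n, ‖(θ : ℂ) ^ (i + 1) * (G (i + 1) - G i)‖ ≤ (1 + 2 * σ) * θ ^ m := by
  have nθ : ∀ k, ‖(θ : ℂ) ^ k‖ = θ ^ k := fun k => by rw [norm_pow, Complex.norm_of_nonneg hθ0.le]
  have hZ : ∀ k, G 0 + ∑ i ∈ range k, (θ : ℂ) ^ (i + 1) * (G (i + 1) - G i) =
      θ ^ k * G k + (1 - θ) * ∑ i ∈ range k, (θ : ℂ) ^ i * G i := fun k => by
    induction k with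
    | zero => simp
    | succ k ih =>
      rw [sum_range_succ, ← add_assoc, ih, sum_range_succ]
      ring
  have hz : ∀ i, m ≤ i → (θ : ℂ) ^ (i + 1) * (G (i + 1) - G i) = 0 := fun i hi => by
    rw [h1 i hi, h1 (i + 1) (by omega), sub_self, mul_zero]
  refine ⟨Or.inr ⟨θ ^ m, by positivity, pow_le_one₀ hθ0.le hθ1, ?_⟩, ?_⟩
  · rw [← sum_subset (range_subset_range.2 hn) fun i _ hi => hz i (by simpa using hi), hZ,
      h1 m le_rfl, mul_one, Complex.ofReal_pow, add_sub_cancel_left, add_sub_cancel_left]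
    have a1 : ‖∑ i ∈ range m, (θ : ℂ) ^ i * G i‖ ≤ σ * θ ^ m :=
      (norm_sum_le_of_le _ fun i _ => norm_mul_le_of_le (nθ i).le le_rfl).trans hσ
    have a2 : ‖(1 - θ : ℂ)‖ ≤ 1 - θ := by
      rw [← Complex.ofReal_one, ← Complex.ofReal_sub, Complex.norm_of_nonneg (by linarith)]
    exact (norm_mul_le_of_le a2 a1).trans_eq (by ring)
  · rw [← sum_subset (range_subset_range.2 hn) fun i _ hi => by
      rw [hz i (by simpa using hi), norm_zero]]
    have a1 : ∑ i ∈ range m, ‖(θ : ℂ) ^ (i + 1) * (G (i + 1) - G i)‖ ≤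
        ∑ i ∈ range m, θ ^ (i + 1) * ‖G (i + 1)‖ + ∑ i ∈ range m, θ ^ i * ‖G i‖ := by
      rw [← sum_add_distrib]
      refine sum_le_sum fun i _ => (norm_mul_le_of_le (nθ (i + 1)).le (norm_sub_le _ _)).trans ?_
      have a2 : θ ^ (i + 1) ≤ θ ^ i := pow_le_pow_of_le_one hθ0.le hθ1 (by omega)
      linarith [mul_le_mul_of_nonneg_right a2 (norm_nonneg (G i)),
        mul_add (θ ^ (i + 1)) ‖G (i + 1)‖ ‖G i‖]
    have a3 := sum_range_succ' (fun i => θ ^ i * ‖G i‖) m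
    rw [sum_range_succ, h1 m le_rfl, norm_one, pow_zero] at a3
    linarith

theorem geo_usq {k ρ : ℝ} (hk : 0 ≤ k) (h0 : 0 ≤ ρ) (h1 : ρ < 1) (m l₀ : ℕ) :
    ∑ j ∈ range m, (if j < l₀ then k else 2 * ρ ^ (j - l₀)) ≤ l₀ * k + 2 / (1 - ρ) := by
  refine (sum_le_sum_of_subset_of_nonneg (range_subset_range.2 (Nat.le_add_left m l₀))
    fun j _ _ => by split_ifs <;> positivity).trans ?_
  rw [sum_range_add, sum_congr rfl fun j hj => if_pos (mem_range.1 hj), sum_const, card_range,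
    nsmul_eq_mul, sum_congr rfl fun j _ => if_neg (Nat.not_lt.2 (Nat.le_add_right l₀ j))]
  simp only [Nat.add_sub_cancel_left]
  rw [← mul_sum, div_eq_mul_inv, ← tsum_geometric_of_lt_one h0 h1]
  linarith [(summable_geometric_of_lt_one h0 h1).sum_le_tsum (range m) fun _ _ => by positivity]

theorem sig_le {g : ℕ → ℝ} {x c κ k : ℝ} {m l₀ : ℕ} (hx : 2 ≤ x) (hc : 0 < c) (h0 : 0 ≤ κ)
    (hκ : κ ≤ c / 2) (hl : 1 ≤ c * l₀) (hk : 0 ≤ k)
    (h1 : ∀ i, i < m → g i ≤ 2 * (x ^ (-c)) ^ (m - i))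
    (h2 : ∀ i, i < m → g i ≤ k * x ^ (-(1 / 2) : ℝ)) :
    ∑ i ∈ range m, (x ^ (-κ)) ^ i * g i ≤
      (l₀ * k + 2 / (1 - 2 ^ (-(c / 2)))) * x ^ (κ * l₀ - 1 / 2) * (x ^ (-κ)) ^ m := by
  have x0 : 0 < x := by linarith
  have x1 : 1 ≤ x := by linarith
  have r0 : (0 : ℝ) ≤ 2 ^ (-(c / 2)) := by positivity
  have r1 : (2 : ℝ) ^ (-(c / 2)) < 1 := Real.rpow_lt_one_of_one_lt_of_neg one_lt_two (by linarith)
  refine le_trans ?_ (mul_le_mul_of_nonneg_right (mul_le_mul_of_nonneg_right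
    (geo_usq hk r0 r1 m l₀) (by positivity)) (by positivity))
  rw [← sum_range_reflect (fun j => if j < l₀ then k else 2 * ((2 : ℝ) ^ (-(c / 2))) ^ (j - l₀)),
    sum_mul, sum_mul]
  refine sum_le_sum fun i hi => ?_
  have g1 := h1 i (mem_range.1 hi)
  have g2 := h2 i (mem_range.1 hi)
  obtain ⟨l, rfl⟩ := Nat.exists_eq_add_of_lt (mem_range.1 hi)
  rw [show i + l + 1 - i = l + 1 by omega] at g1
  rw [show i + l + 1 - 1 - i = l by omega, add_assoc, pow_add, mul_left_comm]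
  refine mul_le_mul_of_nonneg_left ?_ (by positivity)
  rw [← Real.rpow_mul_natCast x0.le, mul_assoc, ← Real.rpow_add x0]
  split_ifs with h
  · refine g2.trans (mul_le_mul_of_nonneg_left (Real.rpow_le_rpow_of_exponent_le x1 ?_) hk)
    have a : ((l + 1 : ℕ) : ℝ) ≤ l₀ := by exact_mod_cast h
    nlinarith
  · obtain ⟨d, rfl⟩ := Nat.exists_eq_add_of_le (Nat.not_lt.1 h)
    rw [Nat.add_sub_cancel_left, mul_assoc]
    refine g1.trans (mul_le_mul_of_nonneg_left ?_ two_pos.le)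
    have a : (x ^ (-(c / 2))) ^ d ≤ ((2 : ℝ) ^ (-(c / 2))) ^ d :=
      pow_le_pow_left₀ (by positivity)
        (Real.rpow_le_rpow_of_nonpos two_pos hx (by linarith)) d
    refine le_trans ?_ (mul_le_mul_of_nonneg_right a (by positivity))
    rw [← Real.rpow_mul_natCast x0.le, ← Real.rpow_mul_natCast x0.le, ← Real.rpow_add x0]
    refine Real.rpow_le_rpow_of_exponent_le x1 ?_
    push_cast
    have b : (0 : ℝ) ≤ d := Nat.cast_nonneg d
    nlinarith [mul_le_mul_of_nonneg_right hκ b]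

theorem big_usq {x t : ℝ} (hx : 2 ≤ x) (h1 : t ≤ 1 / 8) (h : 1 < t * Real.log x) :
    x ^ (t - 1 / 2) ≤ 200 * t ^ 3 * Real.log x := by
  have a1 : 0.69 ≤ Real.log x :=
    le_trans (by linarith [Real.log_two_gt_d9]) (Real.log_le_log two_pos hx)
  rw [Real.rpow_def_of_pos (by linarith)]
  generalize Real.log x = L at *
  have a2 := Real.pow_div_factorial_le_exp (3 / 8 * L) (by linarith) 3
  have a3 : Real.exp (L * (t - 1 / 2)) ≤ (Real.exp (3 / 8 * L))⁻¹ := by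
    rw [← Real.exp_neg]
    exact Real.exp_le_exp.2 (by nlinarith)
  have t0 : 0 < t := by
    by_contra k
    nlinarith [mul_nonneg (neg_nonneg.2 (not_lt.1 k)) (by linarith : 0 ≤ L)]
  have a4 : 1 ≤ (t * L) ^ 3 := one_le_pow₀ h.le
  have a5 : (3 / 8 * L) ^ 3 / (Nat.factorial 3 : ℕ) = 9 / 1024 * L ^ 3 := by
    rw [show Nat.factorial 3 = 6 from rfl]
    push_cast
    ring
  rw [a5] at a2
  refine a3.trans ?_
  rw [inv_le_iff_one_le_mul₀ (Real.exp_pos _)]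
  have a6 := mul_le_mul_of_nonneg_left a2 (by positivity : 0 ≤ 200 * t ^ 3 * L)
  nlinarith [mul_le_mul a1 a4 zero_le_one (by linarith : 0 ≤ L)]

theorem small_usq {x t : ℝ} (hx : 2 ≤ x) (h : t * Real.log x ≤ 1) :
    x ^ (t - 1 / 2) ≤ 3 * x ^ (-(1 / 2) : ℝ) := by
  have x0 : 0 < x := by linarith
  rw [sub_eq_add_neg, Real.rpow_add x0]
  refine mul_le_mul_of_nonneg_right ?_ (by positivity)
  rw [Real.rpow_def_of_pos x0, mul_comm]
  exact (Real.exp_le_exp.2 h).trans (by linarith [Real.exp_one_lt_d9])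

theorem pk_le {x t : ℝ} (hx : 2 ≤ x) (h0 : 0 ≤ t) (h1 : t ≤ 1 / 8) :
    x ^ (t - 1 / 2) ≤ 3 * x ^ (-(1 / 2) : ℝ) + 200 * t ^ 3 * Real.log x := by
  have x0 : 0 < x := by linarith
  have l0 : 0 ≤ Real.log x := Real.log_nonneg (by linarith)
  rcases le_or_gt (t * Real.log x) 1 with h | h
  · exact (small_usq hx h).trans (le_add_of_nonneg_right (by positivity))
  · exact (big_usq hx h1 h).trans (le_add_of_nonneg_left (by positivity))

theorem pk_le' {x t κ : ℝ} (hx : 2 ≤ x) (h0 : 0 ≤ t) (h1 : t ≤ 1 / 8) (hκ : 0 ≤ κ) :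
    (1 - x ^ (-κ)) * x ^ (t - 1 / 2) ≤
      3 * κ * (Real.log x * x ^ (-(1 / 2) : ℝ)) + 200 * t ^ 3 * Real.log x := by
  have x0 : 0 < x := by linarith
  have l0 : 0 ≤ Real.log x := Real.log_nonneg (by linarith)
  rcases le_or_gt (t * Real.log x) 1 with h | h
  · have a : 1 - x ^ (-κ) ≤ κ * Real.log x := by
      rw [Real.rpow_def_of_pos x0]
      linarith [Real.add_one_le_exp (Real.log x * -κ)]
    refine le_trans ((mul_le_mul a (small_usq hx h) (by positivity) (by positivity)).trans_eq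
      (by ring)) (le_add_of_nonneg_right (by positivity))
  · refine le_trans (mul_le_of_le_one_left (by positivity) ?_)
      ((big_usq hx h1 h).trans (le_add_of_nonneg_left (by positivity)))
    linarith [Real.rpow_pos_of_pos x0 (-κ)]

end Vale.Agent.P042.S
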