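import Vale.Agent.P042.U.Ball
import Vale.Agent.P042.U.Seq
import Vale.Agent.P042.T.LocT

/-! # P042 U/LocU (TASK; helper names end with _ulo): the local factor.
`c` from `ball2 k`, `l₀ = ⌈1 / c⌉₊`, `Λ = l₀ k + 2 / (1 - 2 ^ (-(c / 2)))`; model: `locT` in T/LocT.lean with `j ≤ p ^ j ≤ E`; `sig_le` with `g i = ‖Gb h z a p j i‖`, `seq2` with `n = j`.
`dec_ulo`: from `p ^ j ≤ ℓ p ^ (k m)`: `(p ^ (-κ)) ^ m ≤ ℓ ^ (κ / k) (p ^ j) ^ (-(κ / k)) ≤ ℓ (p ^ j) ^ (-(κ / k))` (`κ ≤ 1 ≤ k`, `1 ≤ ℓ`); if `ℓ < p` then `j ≤ k m` and no factor is lost. -/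

namespace Vale.Agent.P042.S

open Finset Polynomial

theorem dec_ulo {x y A κ : ℝ} {k m : ℕ} (hx : 0 < x) (hy : 0 < y) (hA : 1 ≤ A) (h0 : 0 ≤ κ)
    (h1 : κ ≤ 1) (hk : 1 ≤ k) (h : y ≤ A * x ^ (k * m)) :
    (x ^ (-κ)) ^ m ≤ A * y ^ (-(κ / k)) := by
  have hk1 : (1 : ℝ) ≤ k := by exact_mod_cast hk
  have hk0 : (0 : ℝ) < k := by linarith
  have he : 0 ≤ κ / k := by positivity
  have he1 : κ / k ≤ 1 := by rw [div_le_one hk0]; linarith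
  have h2 : y ^ (κ / k) ≤ A * (x ^ κ) ^ m := by
    calc y ^ (κ / k) ≤ (A * x ^ (k * m)) ^ (κ / k) := Real.rpow_le_rpow hy.le h he
      _ = A ^ (κ / k) * (x ^ κ) ^ m := by
        rw [Real.mul_rpow (by linarith) (by positivity), ← Real.rpow_natCast x,
          ← Real.rpow_mul hx.le, ← Real.rpow_natCast (x ^ κ), ← Real.rpow_mul hx.le]
        congr 2
        push_cast
        field_simp
      _ ≤ A * (x ^ κ) ^ m := by
        refine mul_le_mul_of_nonneg_right ?_ (by positivity)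
        exact (Real.rpow_le_rpow_of_exponent_le hA he1).trans_eq (Real.rpow_one A)
  have h3 : 0 < y ^ (κ / k) := Real.rpow_pos_of_pos hy _
  have h4 : 0 < (x ^ κ) ^ m := pow_pos (Real.rpow_pos_of_pos hx _) _
  rw [Real.rpow_neg hx.le, Real.rpow_neg hy.le, inv_pow, ← div_eq_mul_inv, inv_eq_one_div,
    div_le_div_iff₀ h4 h3, one_mul]
  exact h2

theorem lead_ulo {l : ℤ} {p j n : ℕ} (hp : p.Prime) (hl : l ≠ 0)
    (h : (p : ℤ) ^ j ≤ |l| * (p : ℤ) ^ n) :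
    1 ≤ (if p ≤ l.natAbs then (l.natAbs : ℝ) else 1) ∧
      ((p ^ j : ℕ) : ℝ) ≤ (if p ≤ l.natAbs then (l.natAbs : ℝ) else 1) * (p : ℝ) ^ n := by
  have h1 : p ^ j ≤ l.natAbs * p ^ n := by
    rw [← Int.natCast_natAbs] at h
    exact_mod_cast h
  split_ifs with hc
  · exact ⟨by exact_mod_cast Int.natAbs_pos.2 hl, by exact_mod_cast h1⟩
  · refine ⟨le_rfl, ?_⟩
    have h2 : p ^ j < p ^ (n + 1) := by
      rw [pow_succ']
      exact h1.trans_lt (Nat.mul_lt_mul_of_pos_right (not_le.1 hc) (pow_pos hp.pos n))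
    have h3 : j ≤ n := Nat.lt_succ_iff.1 ((Nat.pow_lt_pow_iff_right hp.one_lt).1 h2)
    rw [one_mul]
    exact_mod_cast Nat.pow_le_pow_right hp.pos h3

theorem locU (k : ℕ) : ∃ (c Λ : ℝ) (l₀ : ℕ), 0 < c ∧ 0 ≤ Λ ∧ ∀ h : ℤ[X], 1 ≤ h.natDegree →
    h.natDegree ≤ k → ∀ κ : ℝ, 0 ≤ κ → κ ≤ c / 2 → ∀ (E : ℕ) (z : ℤ) (p : ℕ), p.Prime →
      ∀ (j : ℕ) (a : ℤ), p ^ j ≤ E → ((p ^ j : ℕ) : ℤ) ∣ h.eval z → IsCoprime a p →
        Sec (1 + (1 - (p : ℝ) ^ (-κ)) * (Λ * (p : ℝ) ^ (κ * l₀ - 1 / 2))) 0 (∑ d ∈ (p ^ j).divisors,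
          tm h (DT (fun p => (p : ℝ) ^ (-κ)) (fun _ => E) z) (p ^ j) a d) ∧
        ∑ d ∈ (p ^ j).divisors, ‖tm h (DT (fun p => (p : ℝ) ^ (-κ)) (fun _ => E) z) (p ^ j) a d‖ ≤
          (if p ≤ h.leadingCoeff.natAbs then (h.leadingCoeff.natAbs : ℝ) else 1) *
            (1 + 2 * (Λ * (p : ℝ) ^ (κ * l₀ - 1 / 2))) * ((p ^ j : ℕ) : ℝ) ^ (-(κ / k)) := by
  obtain ⟨c, hc, hc1, hB⟩ := ball2 k
  have hρ₁ : (2 : ℝ) ^ (-(c / 2)) < 1 := Real.rpow_lt_one_of_one_lt_of_neg one_lt_two (by linarith)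
  have hΛ : 0 ≤ (⌈1 / c⌉₊ : ℝ) * k + 2 / (1 - (2 : ℝ) ^ (-(c / 2))) :=
    add_nonneg (by positivity) (div_nonneg zero_le_two (by linarith))
  have hl : 1 ≤ c * (⌈1 / c⌉₊ : ℕ) := by
    have := Nat.le_ceil (1 / c)
    rwa [div_le_iff₀ hc, mul_comm] at this
  refine ⟨c, (⌈1 / c⌉₊ : ℝ) * k + 2 / (1 - (2 : ℝ) ^ (-(c / 2))), ⌈1 / c⌉₊, hc, hΛ,
    fun h hk hk' κ hκ0 hκ E z p hp j a hE hz ha => ?_⟩
  obtain ⟨m, hm, g1, g2, g3, g4⟩ := hB h hk hk' p hp j z a hz ha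
  have hp0 : (0 : ℝ) < p := by exact_mod_cast hp.pos
  have hp2 : (2 : ℝ) ≤ p := by exact_mod_cast hp.two_le
  have h0 : ∀ q : ℕ, 0 ≤ (q : ℝ) ^ (-κ) := fun q => Real.rpow_nonneg (Nat.cast_nonneg q) _
  have h1 : ∀ q : ℕ, (q : ℝ) ^ (-κ) ≤ 1 := fun q => by
    rcases Nat.eq_zero_or_pos q with rfl | hq
    · rw [Nat.cast_zero]
      exact Real.zero_rpow_le_one _
    · exact Real.rpow_le_one_of_one_le_of_nonpos (by exact_mod_cast hq) (by linarith)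
  have hσ := sig_le (g := fun i => ‖Gb h z a p j i‖) hp2 hc hκ0 hκ hl (Nat.cast_nonneg k) g2 g3
  have hS := seq2 (G := Gb h z a p j) (Real.rpow_pos_of_pos hp0 _) (h1 p) g1 hσ hm
  have hL : LW (DT (fun p => (p : ℝ) ^ (-κ)) (fun _ => E) z) := DT_lw h0 h1
  have hjE : j ≤ E := (Nat.lt_pow_self hp.one_lt).le.trans hE
  have t0 : tm h (DT (fun p => (p : ℝ) ^ (-κ)) (fun _ => E) z) (p ^ j) a (p ^ 0) =
      Gb h z a p j 0 := by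
    simp only [tm, gw_powW hL hp]
    exact DT_tm0 p j a
  have t1 : ∀ i ∈ range j, tm h (DT (fun p => (p : ℝ) ^ (-κ)) (fun _ => E) z) (p ^ j) a
      (p ^ (i + 1)) = (((p : ℝ) ^ (-κ) : ℝ) : ℂ) ^ (i + 1) *
        (Gb h z a p j (i + 1) - Gb h z a p j i) := fun i hi => by
    simp only [tm, gw_powW hL hp]
    rw [DT_tm hp (mem_range.1 hi) a, if_pos ((mem_range.1 hi).trans_le hjE)]
  have e1 : ∑ d ∈ (p ^ j).divisors, tm h (DT (fun p => (p : ℝ) ^ (-κ)) (fun _ => E) z) (p ^ j) a d =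
      Gb h z a p j 0 + ∑ i ∈ range j, (((p : ℝ) ^ (-κ) : ℝ) : ℂ) ^ (i + 1) *
        (Gb h z a p j (i + 1) - Gb h z a p j i) := by
    rw [Nat.sum_divisors_prime_pow hp, sum_range_succ', t0, sum_congr rfl t1, add_comm]
  have e2 : ∑ d ∈ (p ^ j).divisors,
      ‖tm h (DT (fun p => (p : ℝ) ^ (-κ)) (fun _ => E) z) (p ^ j) a d‖ =
      ‖Gb h z a p j 0‖ + ∑ i ∈ range j, ‖(((p : ℝ) ^ (-κ) : ℝ) : ℂ) ^ (i + 1) *
        (Gb h z a p j (i + 1) - Gb h z a p j i)‖ := by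
    rw [Nat.sum_divisors_prime_pow hp, sum_range_succ', t0, add_comm]
    congr 1
    exact sum_congr rfl fun i hi => by rw [t1 i hi]
  rw [e1, e2]
  refine ⟨hS.1, hS.2.trans ?_⟩
  have hlc : h.leadingCoeff ≠ 0 := leadingCoeff_ne_zero.2 fun e => by simp [e] at hk
  obtain ⟨a1, a2⟩ := lead_ulo hp hlc g4
  have hd := dec_ulo hp0 (by exact_mod_cast pow_pos hp.pos j) a1 hκ0 (by linarith)
    (hk.trans hk') a2
  rw [mul_comm (ite _ _ _), mul_assoc]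
  refine mul_le_mul_of_nonneg_left hd ?_
  have := mul_nonneg hΛ (Real.rpow_nonneg hp0.le (κ * (⌈1 / c⌉₊ : ℕ) - 1 / 2))
  linarith

end Vale.Agent.P042.S
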