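import Vale.Agent.P042.W.Weil
import Vale.Agent.P042.K.GenB
import Vale.Agent.P042.T.Defs

/-! # P042 U/Prim (TASK; helper names end with _upr): complete sums modulo prime powers.
`av_one`: `f = P.map (Int.castRingHom (ZMod p))` has `1 ≤ natDegree f ≤ k < p` (`le_natDegree_of_ne_zero`, `natDegree_map_le`); `ph_qa`, `sum_qa` with `c = 1`, `d = 0`, `eval_intCast_map`, `weil`, `√p / p = p ^ (-(1 / 2))`.
`av_two`: `ω n = if p ∣ P'(n) then 0 else 1`, `kill_gen` with `a = 1`; the rest is at most the mean of the `p`-periodic indicator of `p ∣ P'(n)` (`av_mul`, or bound the sum directly), and `derivative f ≠ 0` (take the top coefficient: `natDegree f < p`, `coeff_derivative`, or `natDegree_eq_zero_of_derivative_eq_zero`-like) has at most `k` roots (`card_roots'`).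
`av_prim`: if `p ≤ k` use `norm_av_le`, `norm_ph`, `√p ≤ p ≤ k`.  Otherwise let `v` be maximal with `p ^ v ∣ coeff l` for all `l ≥ 1` (`Nat.find` for the least exponent that fails; `v < j`), `P - C (P.coeff 0) = C (p ^ v) * P₁` (`C_dvd_iff_dvd_coeff`),
`ph P 1 (p ^ j) n = ph P₁ 1 (p ^ (j - v)) n * ee (P.coeff 0 / p ^ j)`, `mul_av`, `av_mul`, `ph_per`; `k / p ≤ k p ^ (-(1 / 2))`. -/

namespace Vale.Agent.P042.S

open Finset Polynomial

variable {P : ℤ[X]} {k p : ℕ}

theorem deg_upr (hk : P.natDegree ≤ k) (h : ∃ l, 1 ≤ l ∧ ¬ (p : ℤ) ∣ P.coeff l) :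
    1 ≤ (P.map (Int.castRingHom (ZMod p))).natDegree ∧
      (P.map (Int.castRingHom (ZMod p))).natDegree ≤ k := by
  obtain ⟨l, h1, h2⟩ := h
  refine ⟨h1.trans (le_natDegree_of_ne_zero ?_), natDegree_map_le.trans hk⟩
  rw [coeff_map, eq_intCast]
  exact fun h => h2 ((ZMod.intCast_zmod_eq_zero_iff_dvd _ _).1 h)

theorem ev_upr (P : ℤ[X]) (n : ℕ) : (P.map (Int.castRingHom (ZMod p))).eval (1 * (n : ZMod p) + 0) =
    ((P.eval (n : ℤ) : ℤ) : ZMod p) := by
  rw [one_mul, add_zero, eval_natCast_map, eq_intCast]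

theorem rp_upr {x : ℝ} (hx : 0 ≤ x) : x ^ (-(1 / 2) : ℝ) = (√x)⁻¹ := by
  rw [Real.rpow_neg hx, Real.sqrt_eq_rpow]

theorem sq_upr (hp : p.Prime) : 0 < √(p : ℝ) ∧ √(p : ℝ) ≤ p := by
  have h : (1 : ℝ) ≤ p := by exact_mod_cast hp.one_le
  exact ⟨Real.sqrt_pos.2 (by linarith), Real.sqrt_le_iff.2 ⟨by linarith, by nlinarith⟩⟩

theorem av_one (hp : p.Prime) (hk : P.natDegree ≤ k) (hkp : k < p)
    (h : ∃ l, 1 ≤ l ∧ ¬ (p : ℤ) ∣ P.coeff l) :
    ‖av p (ph P 1 p)‖ ≤ k * (p : ℝ) ^ (-(1 / 2) : ℝ) := by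
  have := Fact.mk hp
  obtain ⟨h1, h2⟩ := deg_upr hk h
  have e := sum_qa (fun x => ZMod.stdAddChar ((P.map (Int.castRingHom (ZMod p))).eval x))
    one_ne_zero 0
  have e' : ∑ n ∈ range p, ph P 1 p n = _ :=
    (sum_congr rfl fun n _ => by rw [ph_qa, ev_upr, one_mul]).trans e
  rw [av, e', norm_div, Complex.norm_natCast, rp_upr (Nat.cast_nonneg p), ← one_div,
    ← Real.sqrt_div_self', ← mul_div_assoc]
  refine div_le_div_of_nonneg_right ((weil h1 (h2.trans_lt hkp)).trans ?_) (Nat.cast_nonneg p)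
  exact mul_le_mul_of_nonneg_right (by exact_mod_cast h2) (Real.sqrt_nonneg _)

theorem av_two (hp : p.Prime) (hk : P.natDegree ≤ k) (hkp : k < p)
    (h : ∃ l, 1 ≤ l ∧ ¬ (p : ℤ) ∣ P.coeff l) (j : ℕ) :
    ‖av (p ^ (j + 2)) (ph P 1 (p ^ (j + 2)))‖ ≤ k / p := by
  have := Fact.mk hp
  obtain ⟨h1, h2⟩ := deg_upr hk h
  let r : ℤ → ℝ := fun n => if (p : ℤ) ∣ (derivative P).eval n then 1 else 0
  have r0 : ∀ n, 0 ≤ r n := fun n => by
    simp only [r]
    split_ifs
    exacts [zero_le_one, le_rfl]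
  have hr : Function.Periodic r (p : ℤ) := fun n => by
    have h3 := sub_dvd_eval_sub (n + p) n (derivative P)
    rw [add_sub_cancel_left] at h3
    simp only [r, dvd_iff_dvd_of_dvd_sub h3]
  have k1 := kill_gen (g := P) hp (ω := fun n => 1 - r n) (fun n => by simp only [hr n])
    (fun n hn => by simp only [r, if_pos hn, sub_self]) j (a := 1) isCoprime_one_left
  have k2 : av (p ^ (j + 2)) (ph P 1 (p ^ (j + 2))) =
      av (p ^ (j + 2)) fun n => r n * ph P 1 (p ^ (j + 2)) n := by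
    simp only [av, Complex.ofReal_sub, Complex.ofReal_one, sub_mul, one_mul, sum_sub_distrib,
      sub_div] at k1
    exact sub_eq_zero.1 k1
  have k3 : ‖av (p ^ (j + 2)) fun n => r n * ph P 1 (p ^ (j + 2)) n‖ ≤
      ‖av (p ^ (j + 2)) fun n => r n‖ := by
    rw [av, av, norm_div, norm_div, ← Complex.ofReal_sum, Complex.norm_real,
      Real.norm_of_nonneg (sum_nonneg fun n _ => r0 _)]
    refine div_le_div_of_nonneg_right (norm_sum_le_of_le _ fun n _ => ?_) (norm_nonneg _)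
    rw [norm_mul, norm_ph, mul_one, Complex.norm_real, Real.norm_of_nonneg (r0 _)]
  have k4 : (av (p ^ (j + 2)) fun n => (r n : ℂ)) = av p fun n => (r n : ℂ) := by
    rw [pow_succ']
    exact av_mul (fun n => by simp only [hr n]) (pow_pos hp.pos _)
  have k5 : derivative (P.map (Int.castRingHom (ZMod p))) ≠ 0 := fun h0 => by
    obtain ⟨d, hd⟩ := Nat.exists_eq_add_of_le' h1
    have h3 := coeff_derivative (P.map (Int.castRingHom (ZMod p))) d
    rw [h0, coeff_zero, ← Nat.cast_succ, Nat.succ_eq_add_one, ← hd] at h3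
    rcases mul_eq_zero.1 h3.symm with h4 | h4
    · rw [leadingCoeff_eq_zero.1 h4, natDegree_zero] at h1
      exact absurd h1 (by norm_num)
    · exact absurd (Nat.le_of_dvd h1 ((ZMod.natCast_eq_zero_iff _ _).1 h4))
        (not_le.2 (h2.trans_lt hkp))
  have k6 := sum_qa (fun x => if (derivative (P.map (Int.castRingHom (ZMod p)))).eval x = 0
    then (1 : ℝ) else 0) one_ne_zero 0
  have k7 : ∑ n ∈ range p, r n = _ := (sum_congr rfl fun n _ => by
    simp only [r, derivative_map, ev_upr, ZMod.intCast_zmod_eq_zero_iff_dvd]).trans k6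
  rw [k2]
  refine k3.trans ?_
  rw [k4, av, norm_div, ← Complex.ofReal_sum, Complex.norm_real, Complex.norm_natCast,
    Real.norm_of_nonneg (sum_nonneg fun n _ => r0 _), k7, sum_boole]
  refine div_le_div_of_nonneg_right (Nat.cast_le.2 ?_) (Nat.cast_nonneg p)
  refine (card_le_degree_of_subset_roots fun x hx => ?_).trans
    ((natDegree_derivative_le _).trans ((Nat.sub_le _ _).trans h2))
  exact (mem_roots k5).2 (mem_filter.1 hx).2

theorem av_prim (hp : p.Prime) (hk : P.natDegree ≤ k) {j : ℕ}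
    (h : ∃ l, 1 ≤ l ∧ ¬ (p : ℤ) ^ j ∣ P.coeff l) :
    ‖av (p ^ j) (ph P 1 (p ^ j))‖ ≤ k * (p : ℝ) ^ (-(1 / 2) : ℝ) := by
  obtain ⟨s0, s1⟩ := sq_upr hp
  rcases le_or_gt p k with hkp | hkp
  · refine (norm_av_le zero_le_one (fun n => (norm_ph _ _ _ n).le) _).trans ?_
    rw [rp_upr (Nat.cast_nonneg p), ← div_eq_mul_inv, one_le_div s0]
    exact s1.trans (Nat.cast_le.2 hkp)
  induction j generalizing P with
  | zero =>
    obtain ⟨l, -, hl⟩ := h
    exact absurd (by rw [pow_zero]; exact one_dvd _) hl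
  | succ j ih =>
    by_cases h' : ∃ l, 1 ≤ l ∧ ¬ (p : ℤ) ∣ P.coeff l
    · cases j with
      | zero =>
        rw [zero_add, pow_one]
        exact av_one hp hk hkp h'
      | succ j =>
        refine (av_two hp hk hkp h' j).trans ?_
        rw [rp_upr (Nat.cast_nonneg p), ← div_eq_mul_inv]
        exact div_le_div_of_nonneg_left (Nat.cast_nonneg k) s0 s1
    · obtain ⟨Q, hQ⟩ : C (p : ℤ) ∣ P - C (P.coeff 0) := (C_dvd_iff_dvd_coeff _ _).2 fun l => by
        rw [coeff_sub, coeff_C]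
        split_ifs with hl
        · rw [hl, sub_self]
          exact dvd_zero _
        · rw [sub_zero]
          exact not_not.1 fun k => h' ⟨l, Nat.pos_of_ne_zero hl, k⟩
      have hp0 : (p : ℝ) ≠ 0 := Nat.cast_ne_zero.2 hp.ne_zero
      have e : ph P 1 (p ^ (j + 1)) =
          fun n => ph Q 1 (p ^ j) n * ee (P.coeff 0 / (p : ℝ) ^ (j + 1)) := by
        funext n
        have h3 := congrArg (eval n) hQ
        rw [eval_sub, eval_C, eval_mul, eval_C, sub_eq_iff_eq_add] at h3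
        rw [ph, ph, ← ee_add, h3]
        refine congrArg ee ?_
        push_cast
        field_simp
        ring
      rw [e, mul_av, norm_mul, norm_ee, mul_one, pow_succ, av_mul (ph_per Q 1 _) hp.pos]
      refine ih ?_ ?_
      · rw [← natDegree_C_mul (Nat.cast_ne_zero.2 hp.ne_zero : (p : ℤ) ≠ 0), ← hQ, natDegree_sub_C]
        exact hk
      · obtain ⟨l, h1, hl⟩ := h
        refine ⟨l, h1, fun k => hl ?_⟩
        have h3 := congrArg (coeff · l) hQ
        simp only [coeff_sub, coeff_C_of_ne_zero (Nat.one_le_iff_ne_zero.1 h1), sub_zero,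
          coeff_C_mul] at h3
        rw [h3, pow_succ']
        exact mul_dvd_mul_left _ k

end Vale.Agent.P042.S
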